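import Vale.Agent.P098.Defs

open MeasureTheory Set Metric Filter
open scoped ContDiff RealInnerProductSpace Topology

namespace Vale.Agent.P098

variable {d : ℕ}

/-- Minimality against compactly supported Lipschitz perturbations, with pointwise gradients. -/
def LipMin (u : E d → ℝ) : Prop :=
  ∀ v : E d → ℝ, (∃ K : NNReal, LipschitzWith K v) → (∀ x, 0 ≤ v x) →
    HasCompactSupport (fun x => v x - u x) →
    0 ≤ ∫ x, ((‖fderiv ℝ v x‖ ^ 2 - ‖fderiv ℝ u x‖ ^ 2) +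
      ({y | 0 < v y}.indicator (fun _ => (1 : ℝ)) x - {y | 0 < u y}.indicator (fun _ => (1 : ℝ)) x))

/-- The `i`-th coordinate vector. -/
noncomputable abbrev ee (i : Fin d) : E d := EuclideanSpace.single i (1 : ℝ)

/-- Divergence of a vector field. -/
noncomputable def divg (F : E d → E d) (x : E d) : ℝ :=
  ∑ i, fderiv ℝ F x (ee i) i

/-- `-D²U(∇U, ∇U)`: on the free boundary this is the mean curvature. -/
noncomputable def curv (U : E d → ℝ) (x : E d) : ℝ :=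
  - ⟪fderiv ℝ (gradient U) x (gradient U x), gradient U x⟫

/-- First partial derivatives. -/
noncomputable def P1 (U : E d → ℝ) (i : Fin d) (x : E d) : ℝ := fderiv ℝ U x (ee i)

/-- Second partial derivatives `∂_j ∂_i U`. -/
noncomputable def P2 (U : E d → ℝ) (i j : Fin d) (x : E d) : ℝ := fderiv ℝ (P1 U i) x (ee j)

/-- Third partial derivatives `∂_k ∂_j ∂_i U`. -/
noncomputable def P3 (U : E d → ℝ) (i j k : Fin d) (x : E d) : ℝ := fderiv ℝ (P2 U i j) x (ee k)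

/-- The Laplacian as a sum of second partial derivatives. -/
noncomputable def lap (U : E d → ℝ) (x : E d) : ℝ := ∑ i, P2 U i i x

/-- `U` is a smooth extension of `u` across the free boundary inside the open set `N`,
satisfying the free boundary condition. -/
structure LocalExt (u : E d → ℝ) (N : Set (E d)) (U : E d → ℝ) : Prop where
  isOpen : IsOpen N
  smooth : ContDiffOn ℝ ∞ U N
  eq : ∀ x ∈ N, 0 < u x → U x = u x
  grad : ∀ x ∈ N, x ∈ frontier {y | 0 < u y} → ‖gradient U x‖ = 1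

/-- `S = |D²U|² + δ`. -/
noncomputable def SS (δ : ℝ) (U : E d → ℝ) (x : E d) : ℝ := (∑ i, ∑ j, P2 U i j x ^ 2) + δ

/-- `v = |∇U|²`. -/
noncomputable def vv (U : E d → ℝ) (x : E d) : ℝ := ∑ i, P1 U i x ^ 2

/-- `|D³U|²`. -/
noncomputable def TT (U : E d → ℝ) (x : E d) : ℝ := ∑ i, ∑ j, ∑ k, P3 U i j k x ^ 2

/-- `tr (D²U)³`. -/
noncomputable def tr3 (U : E d → ℝ) (x : E d) : ℝ :=
  ∑ i, ∑ j, ∑ k, P2 U i j x * P2 U j k x * P2 U k i x

/-- `g = ½ ∇|D²U|²`, component `k`. -/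
noncomputable def gg (U : E d → ℝ) (k : Fin d) (x : E d) : ℝ :=
  ∑ i, ∑ j, P2 U i j x * P3 U i j k x

/-- `D²U ∇U`, component `i`. -/
noncomputable def Q1 (U : E d → ℝ) (i : Fin d) (x : E d) : ℝ := ∑ j, P2 U i j x * P1 U j x

/-- `(D²U)² ∇U`, component `i`. -/
noncomputable def Q2 (U : E d → ℝ) (i : Fin d) (x : E d) : ℝ := ∑ j, P2 U i j x * Q1 U j x

/-- A function of two real variables with its first and second partial derivatives on `D`. -/
structure Jet2 (D : Set (ℝ × ℝ)) (Φ Φ1 Φ2 Φ11 Φ12 Φ22 : ℝ × ℝ → ℝ) : Prop where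
  isOpen : IsOpen D
  smooth : ContDiffOn ℝ ∞ Φ D
  d0 : ∀ q ∈ D, HasFDerivAt Φ
    (Φ1 q • ContinuousLinearMap.fst ℝ ℝ ℝ + Φ2 q • ContinuousLinearMap.snd ℝ ℝ ℝ) q
  d1 : ∀ q ∈ D, HasFDerivAt Φ1
    (Φ11 q • ContinuousLinearMap.fst ℝ ℝ ℝ + Φ12 q • ContinuousLinearMap.snd ℝ ℝ ℝ) q
  d2 : ∀ q ∈ D, HasFDerivAt Φ2
    (Φ12 q • ContinuousLinearMap.fst ℝ ℝ ℝ + Φ22 q • ContinuousLinearMap.snd ℝ ℝ ℝ) q

/-- A function of three real variables with its first partial derivatives on `D`. -/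
structure Jet3 (D : Set (ℝ × ℝ × ℝ)) (ψ ψ1 ψ2 ψ3 : ℝ × ℝ × ℝ → ℝ) : Prop where
  isOpen : IsOpen D
  smooth : ContDiffOn ℝ ∞ ψ D
  d0 : ∀ q ∈ D, ∀ a b c : ℝ, fderiv ℝ ψ q (a, b, c) = ψ1 q * a + ψ2 q * b + ψ3 q * c

end Vale.Agent.P098
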